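import Vale.Agent.Lib.P368.Sq.Core

/-!
# P368, depth two with the sharp exponent: the signed sum of the outcome probabilities
-/

namespace Vale.Agent.Lib.P368

open Finset

variable {Q : Type} [Fintype Q] [DecidableEq Q]

/-- The signed sum over all inputs of the probability of the outcome `b` on qubit `q`, for two
layers of multi-controlled `Z` gates with one-qubit unitaries around them: at most three times
the square root of two to the power `n`. -/
theorem signed_sum_two_sqrt {n : ℕ} (inp : Fin n ↪ Q)
    (first v w2 last : Q → Matrix Bool Bool ℂ) (L1 L2 : Finset (Finset Q))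
    (hfirst : ∀ p, first p ∈ Matrix.unitaryGroup Bool ℂ)
    (hv : ∀ p, v p ∈ Matrix.unitaryGroup Bool ℂ)
    (hw2 : ∀ p, w2 p ∈ Matrix.unitaryGroup Bool ℂ)
    (hlast : ∀ p, last p ∈ Matrix.unitaryGroup Bool ℂ)
    (hL1 : (L1 : Set (Finset Q)).PairwiseDisjoint id)
    (hL2 : (L2 : Set (Finset Q)).PairwiseDisjoint id) (q : Q) (b : Bool) :
    |∑ x : Fin n → Bool, sgn x * measProb (oneQubitLayer last (oneQubitLayer w2 (czLayer L2
      (oneQubitLayer v (czLayer L1 (oneQubitLayer first
        (basisState (Function.extend inp x fun _ => false)))))))) q b| ≤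
      3 * Real.sqrt 2 ^ n := by
  have hgU : last q * w2 q ∈ Matrix.unitaryGroup Bool ℂ := mul_mem (hlast q) (hw2 q)
  obtain ⟨B', r', hr', hmeas⟩ := measProb_depth_two L2 hL2 (last q * w2 q) q b
  have hrow : Complex.normSq ((last q * w2 q) b false) +
      Complex.normSq ((last q * w2 q) b true) = 1 := unitary_row _ hgU b
  have hrow' : Complex.normSq (r' false) + Complex.normSq (r' true) ≤ 1 := by
    rw [hr' false, hr' true]
    exact le_of_eq hrow
  have hc0 : ∀ p, IsRow ((if p = q then rowMat b ((last q * w2 q) b) else 1) * v p) ∨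
      (if p = q then rowMat b ((last q * w2 q) b) else 1) * v p ∈
        Matrix.unitaryGroup Bool ℂ := by
    intro p
    split_ifs
    · exact Or.inl (isRow_mul_unitary _ _ (isRow_rowMat b _ (le_of_eq hrow)) (hv p))
    · right
      rw [one_mul]
      exact hv p
  have hc1 : ∀ p, IsRow ((if p = q then rowMat b ((last q * w2 q) b) else
      if p ∈ B' then projOne else 1) * v p) ∨
      (if p = q then rowMat b ((last q * w2 q) b) else
        if p ∈ B' then projOne else 1) * v p ∈ Matrix.unitaryGroup Bool ℂ := by
    intro p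
    split_ifs
    · exact Or.inl (isRow_mul_unitary _ _ (isRow_rowMat b _ (le_of_eq hrow)) (hv p))
    · exact Or.inl (isRow_mul_unitary _ _ isRow_projOne (hv p))
    · right
      rw [one_mul]
      exact hv p
  have hc2 : ∀ p, IsRow ((if p = q then rowMat b r' else
      if p ∈ B' then projOne else 1) * v p) ∨
      (if p = q then rowMat b r' else
        if p ∈ B' then projOne else 1) * v p ∈ Matrix.unitaryGroup Bool ℂ := by
    intro p
    split_ifs
    · exact Or.inl (isRow_mul_unitary _ _ (isRow_rowMat b _ hrow') (hv p))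
    · exact Or.inl (isRow_mul_unitary _ _ isRow_projOne (hv p))
    · right
      rw [one_mul]
      exact hv p
  have hterm : ∀ y : Q → Bool, measProb (oneQubitLayer last (oneQubitLayer w2 (czLayer L2
      (oneQubitLayer v (czLayer L1 (oneQubitLayer first (basisState y))))))) q b =
      outNorm (fun p => (if p = q then rowMat b ((last q * w2 q) b) else 1) * v p) L1 first y
        - outNorm (fun p => (if p = q then rowMat b ((last q * w2 q) b) else
            if p ∈ B' then projOne else 1) * v p) L1 first y
        + outNorm (fun p => (if p = q then rowMat b r' else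
            if p ∈ B' then projOne else 1) * v p) L1 first y := by
    intro y
    rw [oneQubitLayer_comp last w2]
    have h1 := measProb_oneQubitLayer_local (fun p => last p * w2 p)
      (fun p => mul_mem (hlast p) (hw2 p))
      (czLayer L2 (oneQubitLayer v (czLayer L1 (oneQubitLayer first (basisState y))))) q b
    rw [h1]
    have h2 := hmeas (oneQubitLayer v (czLayer L1 (oneQubitLayer first (basisState y))))
    rw [h2]
    unfold outNorm
    rw [oneQubitLayer_comp, oneQubitLayer_comp, oneQubitLayer_comp]
  have hsum : (∑ x : Fin n → Bool, sgn x * measProb (oneQubitLayer last (oneQubitLayer w2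
      (czLayer L2 (oneQubitLayer v (czLayer L1 (oneQubitLayer first
        (basisState (Function.extend inp x fun _ => false)))))))) q b) =
      sigSum (inTau inp) (fun p => (if p = q then rowMat b ((last q * w2 q) b) else 1) * v p)
          L1 first
        - sigSum (inTau inp) (fun p => (if p = q then rowMat b ((last q * w2 q) b) else
            if p ∈ B' then projOne else 1) * v p) L1 first
        + sigSum (inTau inp) (fun p => (if p = q then rowMat b r' else
            if p ∈ B' then projOne else 1) * v p) L1 first := by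
    unfold sigSum
    rw [← sum_sgn_extend inp, ← sum_sgn_extend inp, ← sum_sgn_extend inp,
      ← Finset.sum_sub_distrib, ← Finset.sum_add_distrib]
    refine Finset.sum_congr rfl fun x _ => ?_
    rw [hterm]
    ring
  rw [hsum]
  have b0 := abs_sigSum_sqrt_le (inTau inp) _ L1 first hL1 hc0 hfirst
  have b1 := abs_sigSum_sqrt_le (inTau inp) _ L1 first hL1 hc1 hfirst
  have b2 := abs_sigSum_sqrt_le (inTau inp) _ L1 first hL1 hc2 hfirst
  rw [card_inTau] at b0 b1 b2
  have t1 := abs_add_le
    (sigSum (inTau inp) (fun p => (if p = q then rowMat b ((last q * w2 q) b) else 1) * v p)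
          L1 first
        - sigSum (inTau inp) (fun p => (if p = q then rowMat b ((last q * w2 q) b) else
            if p ∈ B' then projOne else 1) * v p) L1 first)
    (sigSum (inTau inp) (fun p => (if p = q then rowMat b r' else
            if p ∈ B' then projOne else 1) * v p) L1 first)
  have t2 := abs_sub
    (sigSum (inTau inp) (fun p => (if p = q then rowMat b ((last q * w2 q) b) else 1) * v p)
          L1 first)
    (sigSum (inTau inp) (fun p => (if p = q then rowMat b ((last q * w2 q) b) else
            if p ∈ B' then projOne else 1) * v p) L1 first)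
  linarith

/-- The signed sum of the output probabilities of a circuit of entangling depth at most two, in
the gate model with generalized Toffoli gates. -/
theorem t_signed_sum_depth_two_sqrt {n : ℕ} (inp : Fin n ↪ Q) (Tc : List (List (TGate Q)))
    (hv : ∀ l ∈ Tc, LayerValid l) (hd : entDepth Tc ≤ 2) (q : Q) (b : Bool) :
    |∑ x : Fin n → Bool, sgn x * tOutProb Tc inp q x b| ≤ 3 * Real.sqrt 2 ^ n := by
  obtain ⟨pre, last, hlen, _, hpre, hlast, hrun⟩ := tRun_normal_form Tc hv
  obtain ⟨first, v, L1, L2, hfirst, hv', hL1, hL2, hform⟩ :=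
    preRun_le_two pre last (hlen.trans_le hd) hpre
  unfold tOutProb
  simp only [hrun, hform]
  exact signed_sum_two_sqrt inp first v (fun _ => 1) last L1 L2 hfirst hv' (fun _ => one_mem _)
    hlast hL1 hL2 q b

/-- From signed sums of outcome probabilities bounded by `K * c ^ n` to the parity correlation
and the worst-case advantage. -/
theorem parity_corr_bound_base {n : ℕ} (K c : ℝ) (P : (Fin n → Bool) → Bool → ℝ)
    (hadd : ∀ x, P x true + P x false = 1)
    (hs : ∀ b, |∑ x : Fin n → Bool, sgn x * P x b| ≤ K * c ^ n) :
    |(∑ x : Fin n → Bool, (P x (parity x) - P x (!parity x))) /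
        ((2 ^ Fintype.card (Fin n) : ℕ) : ℝ)| ≤ 2 * K * c ^ n / 2 ^ n ∧
      ∀ ε : ℝ, (∀ x : Fin n → Bool, 1 / 2 + ε ≤ P x (parity x)) → ε ≤ K * c ^ n / 2 ^ n := by
  have hcard : Fintype.card (Fin n) = n := Fintype.card_fin n
  have hx : ∀ x : Fin n → Bool,
      P x (parity x) - P x (!parity x) = sgn x * P x false - sgn x * P x true := by
    intro x
    rw [sgn_eq_parity]
    cases h : parity x
    · simp
    · simp
      ring
  have hS : (∑ x : Fin n → Bool, (P x (parity x) - P x (!parity x))) =
      (∑ x : Fin n → Bool, sgn x * P x false) - ∑ x : Fin n → Bool, sgn x * P x true := by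
    rw [← Finset.sum_sub_distrib]
    exact Finset.sum_congr rfl fun x _ => hx x
  have hSabs : |∑ x : Fin n → Bool, (P x (parity x) - P x (!parity x))| ≤
      2 * (K * c ^ n) := by
    rw [hS]
    have h1 := hs false
    have h2 := hs true
    have h3 := abs_sub (∑ x : Fin n → Bool, sgn x * P x false)
      (∑ x : Fin n → Bool, sgn x * P x true)
    linarith
  have hpow : (0 : ℝ) < 2 ^ n := by positivity
  have hcorr : |(∑ x : Fin n → Bool, (P x (parity x) - P x (!parity x))) /
        ((2 ^ Fintype.card (Fin n) : ℕ) : ℝ)| ≤ 2 * K * c ^ n / 2 ^ n := by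
    rw [hcard]
    push_cast
    rw [abs_div, abs_of_pos hpow]
    apply div_le_div_of_nonneg_right _ hpow.le
    calc |∑ x : Fin n → Bool, (P x (parity x) - P x (!parity x))|
        ≤ 2 * (K * c ^ n) := hSabs
      _ = 2 * K * c ^ n := by ring
  refine ⟨hcorr, ?_⟩
  intro ε hε
  have hadd' : ∀ x : Fin n → Bool, P x (parity x) + P x (!parity x) = 1 := by
    intro x
    have h := hadd x
    cases hp : parity x
    · simp only [Bool.not_false]
      rw [add_comm]
      exact h
    · simp only [Bool.not_true]
      exact h
  have hlow : (2 * ε) * 2 ^ n ≤ ∑ x : Fin n → Bool, (P x (parity x) - P x (!parity x)) := by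
    have h1 : ∀ x ∈ (Finset.univ : Finset (Fin n → Bool)),
        2 * ε ≤ P x (parity x) - P x (!parity x) := by
      intro x _
      have h2 := hadd' x
      have h3 := hε x
      linarith
    have h5 := Finset.card_nsmul_le_sum _ _ _ h1
    rw [Finset.card_univ, nsmul_eq_mul] at h5
    have h6 : (Fintype.card (Fin n → Bool) : ℝ) = 2 ^ n := by
      simp
    rw [h6] at h5
    linarith
  have hcorr2 : 2 * ε ≤ (∑ x : Fin n → Bool, (P x (parity x) - P x (!parity x))) /
        ((2 ^ Fintype.card (Fin n) : ℕ) : ℝ) := by
    rw [hcard]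
    push_cast
    rw [le_div_iff₀ hpow]
    exact hlow
  have h7 := le_abs_self ((∑ x : Fin n → Bool, (P x (parity x) - P x (!parity x))) /
        ((2 ^ Fintype.card (Fin n) : ℕ) : ℝ))
  have h8 : 2 * K * c ^ n / 2 ^ n = 2 * (K * c ^ n / 2 ^ n) := by ring
  linarith

/-- `(sqrt 2)^n / 2^n = 1 / (sqrt 2)^n`. -/
theorem sqrt_two_pow_div (n : ℕ) : Real.sqrt 2 ^ n / 2 ^ n = 1 / Real.sqrt 2 ^ n := by
  have h : (2 : ℝ) ^ n = Real.sqrt 2 ^ n * Real.sqrt 2 ^ n := by
    rw [← mul_pow, sqrt_two_sq]
  have hpos : (0 : ℝ) < Real.sqrt 2 ^ n := pow_pos (by positivity) n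
  rw [h]
  field_simp

end Vale.Agent.Lib.P368
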