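import Vale.Agent.Lib.P368.Sq.Pair

/-!
# P368: the pair circuit is valid, and the parity correlation does not depend on the names of
the input bits
-/

namespace Vale.Agent.Lib.P368

open Finset

theorem pairCircuit_valid (m : ℕ) (hm : 1 ≤ m) : ∀ l ∈ pairCircuit m, LayerValid l := by
  intro l hl
  unfold pairCircuit at hl
  simp only [List.mem_cons, List.not_mem_nil, or_false] at hl
  rcases hl with rfl | rfl
  · refine ⟨?_, ?_⟩
    · intro g hg
      rw [List.mem_map] at hg
      obtain ⟨i, -, rfl⟩ := hg
      refine ⟨Finset.singleton_nonempty _, ?_⟩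
      simp
    · rw [List.pairwise_map]
      refine List.Pairwise.imp ?_ (List.nodup_finRange m)
      intro i j hij
      rw [Finset.disjoint_left]
      intro p hp hq
      simp only [TGate.support, Finset.mem_insert, Finset.mem_singleton] at hp hq
      rcases hp with rfl | rfl <;> rcases hq with h | h <;>
        simp only [Option.some.injEq, Prod.mk.injEq] at h <;> exact hij h.1
  · refine ⟨?_, List.pairwise_singleton _ _⟩
    intro g hg
    rw [List.mem_singleton] at hg
    subst hg
    refine ⟨?_, ?_⟩
    · have : Nonempty (Fin m) := ⟨⟨0, hm⟩⟩
      exact Finset.univ_nonempty.image _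
    · simp

theorem pairCircuit_entDepth (m : ℕ) : entDepth (pairCircuit m) ≤ 2 := by
  unfold entDepth
  refine (List.length_filter_le _ _).trans ?_
  simp [pairCircuit]

/-- Extending along the renamed embedding is extending the renamed bit string. -/
theorem pa_extend {Q : Type} {α β : Type} (e : β ≃ α) (inp : α ↪ Q) (x : β → Bool) :
    Function.extend (e.toEmbedding.trans inp) x (fun _ => false)
      = Function.extend inp (x ∘ e.symm) (fun _ => false) := by
  funext p
  by_cases h : ∃ a, inp a = p
  · obtain ⟨a, rfl⟩ := h
    rw [inp.injective.extend_apply]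
    have h1 : inp a = (e.toEmbedding.trans inp) (e.symm a) := by simp
    rw [h1, (e.toEmbedding.trans inp).injective.extend_apply]
    simp
  · rw [Function.extend_apply' _ _ _ h, Function.extend_apply']
    rintro ⟨b, hb⟩
    exact h ⟨e b, by simpa using hb⟩

/-- The parity of a renamed bit string. -/
theorem pa_parity {α β : Type} [Fintype α] [Fintype β] (e : β ≃ α) (x : β → Bool) :
    parity (x ∘ e.symm) = parity x := by
  unfold parity
  have h : (univ.filter fun a => (x ∘ e.symm) a = true).card
      = (univ.filter fun b => x b = true).card :=
    Finset.card_equiv e.symm (by simp)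
  rw [h]

/-- Renaming the input bits by a bijection does not change the parity correlation. -/
theorem tParityCorrelation_reindex {Q : Type} [Fintype Q] [DecidableEq Q] {α β : Type}
    [Fintype α] [DecidableEq α] [Fintype β] [DecidableEq β] (e : β ≃ α)
    (Tc : List (List (TGate Q))) (inp : α ↪ Q) (q : Q) :
    tParityCorrelation Tc (e.toEmbedding.trans inp) q = tParityCorrelation Tc inp q := by
  unfold tParityCorrelation
  have hcard : Fintype.card β = Fintype.card α := Fintype.card_congr e
  rw [hcard]
  congr 1
  have hterm : ∀ x : β → Bool,
      tOutProb Tc (e.toEmbedding.trans inp) q x (parity x)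
          - tOutProb Tc (e.toEmbedding.trans inp) q x (!parity x)
        = tOutProb Tc inp q (x ∘ e.symm) (parity (x ∘ e.symm))
          - tOutProb Tc inp q (x ∘ e.symm) (!parity (x ∘ e.symm)) := by
    intro x
    rw [pa_parity e x]
    unfold tOutProb
    rw [pa_extend e inp x]
  rw [Finset.sum_congr rfl (fun x _ => hterm x)]
  exact Equiv.sum_comp (e.arrowCongr (Equiv.refl Bool))
    (fun x' => tOutProb Tc inp q x' (parity x') - tOutProb Tc inp q x' (!parity x'))

end Vale.Agent.Lib.P368
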