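import Vale.Agent.Lib.P368.Sq.PairCount
import Vale.Agent.Lib.P368.Sq.PairAux

/-!
# P368, depth two with the sharp exponent: a circuit of entangling depth two whose parity
correlation is `2 / 2 ^ m` on `2 * m` input bits
-/

namespace Vale.Agent.Lib.P368

open Finset

/-- For every `m ≥ 1` there are a valid circuit of entangling depth two and a placement of
`2 * m` input bits whose parity correlation is `2 / 2 ^ m` in absolute value. -/
theorem depth_two_witness (m : ℕ) (hm : 1 ≤ m) :
    ∃ (inp : Fin (2 * m) ↪ Option (Fin m × Bool))
      (Tc : List (List (TGate (Option (Fin m × Bool))))),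
      (∀ l ∈ Tc, LayerValid l) ∧ entDepth Tc ≤ 2 ∧
        |tParityCorrelation Tc inp none| = 2 / 2 ^ m := by
  have hcard : Fintype.card (Fin (2 * m)) = Fintype.card (Fin m × Bool) := by
    simp [Fintype.card_prod, mul_comm]
  refine ⟨(Fintype.equivOfCardEq hcard).toEmbedding.trans Function.Embedding.some,
    pairCircuit m, pairCircuit_valid m hm, pairCircuit_entDepth m, ?_⟩
  rw [tParityCorrelation_reindex]
  exact pair_corr m hm

end Vale.Agent.Lib.P368
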