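import Vale.Agent.Lib.P368.Sq.Defs

/-!
# P368, depth two with the sharp exponent: matrices with a single row
-/

namespace Vale.Agent.Lib.P368

open Finset

theorem isRow_rowMat (b : Bool) (r : Bool → ℂ)
    (hr : Complex.normSq (r false) + Complex.normSq (r true) ≤ 1) : IsRow (rowMat b r) :=
  ⟨b, r, hr, rfl⟩

theorem isRow_projOne : IsRow projOne := by
  refine ⟨true, fun c => if c = true then 1 else 0, ?_, ?_⟩
  · simp
  · funext c c'
    cases c <;> cases c' <;> simp [projOne, rowMat]

theorem isContr_of_isRow (m : Matrix Bool Bool ℂ) (hm : IsRow m) : IsContr m := by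
  obtain ⟨b, r, hr, rfl⟩ := hm
  exact isContr_rowMat b r hr

/-- A row vector times a unitary matrix of size two has the same Euclidean norm. -/
theorem rw_norm (v : Matrix Bool Bool ℂ) (hv : v ∈ Matrix.unitaryGroup Bool ℂ) (x y : ℂ) :
    Complex.normSq (x * v false false + y * v true false) +
      Complex.normSq (x * v false true + y * v true true) =
      Complex.normSq x + Complex.normSq y := by
  have h := Matrix.mem_unitaryGroup_iff.mp hv
  have h00 := congrFun (congrFun h false) false
  have h11 := congrFun (congrFun h true) true
  have h01 := congrFun (congrFun h false) true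
  have h10 := congrFun (congrFun h true) false
  simp only [Matrix.mul_apply, Matrix.star_apply, Fintype.sum_bool, Matrix.one_apply_eq]
    at h00 h11
  simp only [Matrix.mul_apply, Matrix.star_apply, Fintype.sum_bool, ne_eq,
    not_false_eq_true, Matrix.one_apply_ne, Bool.false_eq_true, Bool.true_eq_false] at h01 h10
  simp only [RCLike.star_def] at h00 h11 h01 h10
  apply Complex.ofReal_injective
  push_cast
  simp only [Complex.normSq_eq_conj_mul_self, map_add, map_mul]
  linear_combination ((starRingEnd ℂ) x * x) * h00 + ((starRingEnd ℂ) y * y) * h11 +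
    ((starRingEnd ℂ) x * y) * h10 + ((starRingEnd ℂ) y * x) * h01

/-- A single row times a unitary matrix is a single row of the same norm. -/
theorem isRow_mul_unitary (m v : Matrix Bool Bool ℂ) (hm : IsRow m)
    (hv : v ∈ Matrix.unitaryGroup Bool ℂ) : IsRow (m * v) := by
  obtain ⟨b, r, hr, rfl⟩ := hm
  refine ⟨b, fun c' => r false * v false c' + r true * v true c', ?_, ?_⟩
  · rw [rw_norm v hv (r false) (r true)]
    exact hr
  · funext c c'
    simp only [Matrix.mul_apply, Fintype.sum_bool, rowMat]
    split_ifs
    · ring
    · ring

end Vale.Agent.Lib.P368
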