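import Vale.Agent.Lib.P368.Sq.Gate
import Vale.Agent.Lib.P368.Sq.Row

/-!
# P368, depth two with the sharp exponent: the signed sum after one entangling layer
-/

namespace Vale.Agent.Lib.P368

open Finset

variable {Q : Type} [Fintype Q] [DecidableEq Q]

theorem sqrt_two_sq : Real.sqrt 2 * Real.sqrt 2 = 2 :=
  Real.mul_self_sqrt (by norm_num)

theorem one_le_sqrt_two : (1 : ℝ) ≤ Real.sqrt 2 := by
  rw [show (1 : ℝ) = Real.sqrt 1 by simp]
  exact Real.sqrt_le_sqrt (by norm_num)

theorem sqrt_gate_le (k : ℕ) : (if k ≤ 1 then (1 : ℝ) else 2) ≤ Real.sqrt 2 ^ k := by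
  split_ifs with h
  · exact one_le_pow₀ one_le_sqrt_two
  · have h2 : 2 ≤ k := by omega
    have h3 : Real.sqrt 2 ^ 2 ≤ Real.sqrt 2 ^ k := pow_le_pow_right₀ one_le_sqrt_two h2
    have h4 : Real.sqrt 2 ^ 2 = 2 := by
      rw [pow_two]
      exact sqrt_two_sq
    rw [h4] at h3
    exact h3

/-- The signed sum after one layer of multi-controlled `Z` gates with pairwise disjoint supports
and a layer of one-qubit matrices, each unitary or with a single row of norm at most one: at
most the square root of two to the power `k` in modulus, where `k` is the number of input qubits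
(the trivial bound is two to the power `k`). -/
theorem abs_sigSum_sqrt_le (τ : Q → Bool) (m : Q → Matrix Bool Bool ℂ) (L : Finset (Finset Q))
    (u : Q → Matrix Bool Bool ℂ) (hL : (L : Set (Finset Q)).PairwiseDisjoint id)
    (hm : ∀ p, IsRow (m p) ∨ m p ∈ Matrix.unitaryGroup Bool ℂ)
    (hu : ∀ p, u p ∈ Matrix.unitaryGroup Bool ℂ) :
    |sigSum τ m L u| ≤ Real.sqrt 2 ^ (univ.filter fun p => τ p = true).card := by
  have hc : ∀ p, IsContr (m p) := by
    intro p
    rcases hm p with h | h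
    · exact isContr_of_isRow _ h
    · exact isContr_of_unitary _ h
  have h := sigSum_eq_S4 τ m L u
  rw [S4_factor _ L hL] at h
  have habs : |sigSum τ m L u| = ‖((sigSum τ m L u : ℝ) : ℂ)‖ := by
    rw [Complex.norm_real, Real.norm_eq_abs]
  rw [habs, h, norm_mul, norm_prod, norm_prod]
  have hK : ∏ p ∈ univ \ L.biUnion id, ‖K0 (kap (τ p) (m p) (u p))‖ ≤ 1 :=
    Finset.prod_le_one (fun p _ => norm_nonneg _)
      (fun p _ => norm_K0_kap_le (τ p) (m p) (u p) (hc p) (hu p))
  have hG : ∏ A ∈ L, ‖gateSum (fun p => kap (τ p) (m p) (u p)) A‖ ≤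
      ∏ A ∈ L, Real.sqrt 2 ^ (A.filter fun p => τ p = true).card := by
    refine Finset.prod_le_prod (fun A _ => norm_nonneg _) (fun A _ => ?_)
    exact (norm_gateSum_row_le τ m u A (fun p _ => hm p) (fun p _ => hu p)).trans
      (sqrt_gate_le _)
  have hG0 : 0 ≤ ∏ A ∈ L, ‖gateSum (fun p => kap (τ p) (m p) (u p)) A‖ :=
    Finset.prod_nonneg fun A _ => norm_nonneg _
  have hsum : ∑ A ∈ L, (A.filter fun p => τ p = true).card ≤
      (univ.filter fun p => τ p = true).card := by
    rw [← Finset.card_biUnion]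
    · apply Finset.card_le_card
      intro p hp
      rw [Finset.mem_biUnion] at hp
      obtain ⟨A, _, hpA⟩ := hp
      rw [Finset.mem_filter] at hpA ⊢
      exact ⟨Finset.mem_univ _, hpA.2⟩
    · intro A hA B hB hAB
      have hd : Disjoint A B := hL hA hB hAB
      exact Finset.disjoint_filter_filter hd
  calc (∏ A ∈ L, ‖gateSum (fun p => kap (τ p) (m p) (u p)) A‖) *
        ∏ p ∈ univ \ L.biUnion id, ‖K0 (kap (τ p) (m p) (u p))‖
      ≤ (∏ A ∈ L, ‖gateSum (fun p => kap (τ p) (m p) (u p)) A‖) * 1 :=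
        mul_le_mul_of_nonneg_left hK hG0
    _ = ∏ A ∈ L, ‖gateSum (fun p => kap (τ p) (m p) (u p)) A‖ := mul_one _
    _ ≤ ∏ A ∈ L, Real.sqrt 2 ^ (A.filter fun p => τ p = true).card := hG
    _ = Real.sqrt 2 ^ ∑ A ∈ L, (A.filter fun p => τ p = true).card :=
        Finset.prod_pow_eq_pow_sum _ _ _
    _ ≤ Real.sqrt 2 ^ (univ.filter fun p => τ p = true).card :=
        pow_le_pow_right₀ one_le_sqrt_two hsum

end Vale.Agent.Lib.P368
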