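import Vale.Agent.Lib.P368.Tof.Main

/-!
# P368, depth two with the sharp exponent: definitions

Conventions used in the comments: after the first entangling layer, the measurement of the output
qubit through the second entangling layer is expressed by one-qubit matrices that are either
unitary or have a single nonzero row of norm at most one (a projection onto a vector).
-/

namespace Vale.Agent.Lib.P368

/-- A one-qubit matrix with a single nonzero row, of norm at most one. -/
def IsRow (m : Matrix Bool Bool ℂ) : Prop :=
  ∃ (b : Bool) (r : Bool → ℂ), Complex.normSq (r false) + Complex.normSq (r true) ≤ 1 ∧
    m = rowMat b r

end Vale.Agent.Lib.P368
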