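import Vale.Agent.Lib.P368.Sq.Defs

/-!
# P368, depth two with the sharp exponent: the one-qubit sums for a matrix with a single row
-/

namespace Vale.Agent.Lib.P368

open Finset

/-- The sum `K0` for a matrix with a single row. -/
theorem rk_K0 (t b : Bool) (r : Bool → ℂ) (u : Matrix Bool Bool ℂ) :
    K0 (kap t (rowMat b r) u) =
      ((wt t false : ℝ) : ℂ) * ((r false * u false false + r true * u true false)
          * (starRingEnd ℂ) (r false * u false false + r true * u true false))
        + ((wt t true : ℝ) : ℂ) * ((r false * u false true + r true * u true true)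
          * (starRingEnd ℂ) (r false * u false true + r true * u true true)) := by
  cases b <;> simp only [K0, kap, rowMat, Fintype.sum_prod_type, Fintype.sum_bool] <;>
    simp only [Bool.false_eq_true, Bool.true_eq_false, if_false, if_true, map_add, map_mul,
      map_zero] <;>
    ring

/-- The sum `K1` for a matrix with a single row. -/
theorem rk_K1 (t b : Bool) (r : Bool → ℂ) (u : Matrix Bool Bool ℂ) :
    K1 (kap t (rowMat b r) u) =
      ((wt t false : ℝ) : ℂ) * ((r true * u true false)
          * (starRingEnd ℂ) (r false * u false false + r true * u true false))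
        + ((wt t true : ℝ) : ℂ) * ((r true * u true true)
          * (starRingEnd ℂ) (r false * u false true + r true * u true true)) := by
  cases b <;> simp only [K1, kap, rowMat, Fintype.sum_prod_type, Fintype.sum_bool] <;>
    simp only [Bool.false_eq_true, Bool.true_eq_false, if_false, if_true, map_add, map_mul,
      map_zero] <;>
    ring

/-- The sum `K2` for a matrix with a single row. -/
theorem rk_K2 (t b : Bool) (r : Bool → ℂ) (u : Matrix Bool Bool ℂ) :
    K2 (kap t (rowMat b r) u) =
      ((wt t false : ℝ) : ℂ) * ((r false * u false false + r true * u true false)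
          * (starRingEnd ℂ) (r true * u true false))
        + ((wt t true : ℝ) : ℂ) * ((r false * u false true + r true * u true true)
          * (starRingEnd ℂ) (r true * u true true)) := by
  cases b <;> simp only [K2, kap, rowMat, Fintype.sum_prod_type, Fintype.sum_bool] <;>
    simp only [Bool.false_eq_true, Bool.true_eq_false, if_false, if_true, map_mul,
      map_zero] <;>
    ring

/-- The sum `K3` for a matrix with a single row. -/
theorem rk_K3 (t b : Bool) (r : Bool → ℂ) (u : Matrix Bool Bool ℂ) :
    K3 (kap t (rowMat b r) u) =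
      ((wt t false : ℝ) : ℂ) * ((r true * u true false)
          * (starRingEnd ℂ) (r true * u true false))
        + ((wt t true : ℝ) : ℂ) * ((r true * u true true)
          * (starRingEnd ℂ) (r true * u true true)) := by
  cases b <;> simp only [K3, kap, rowMat, Fintype.sum_prod_type, Fintype.sum_bool] <;>
    simp only [Bool.false_eq_true, Bool.true_eq_false, if_false, if_true, map_mul,
      map_zero, and_self, and_true, and_false] <;>
    ring

/-- The relations between the entries of a unitary matrix of size two: the rows are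
orthonormal. -/
theorem rk_unitary (u : Matrix Bool Bool ℂ) (hu : u ∈ Matrix.unitaryGroup Bool ℂ) :
    (u false false * (starRingEnd ℂ) (u false false)
        + u false true * (starRingEnd ℂ) (u false true) = 1) ∧
    (u true false * (starRingEnd ℂ) (u true false)
        + u true true * (starRingEnd ℂ) (u true true) = 1) ∧
    (u false false * (starRingEnd ℂ) (u true false)
        + u false true * (starRingEnd ℂ) (u true true) = 0) ∧
    (u true false * (starRingEnd ℂ) (u false false)
        + u true true * (starRingEnd ℂ) (u false true) = 0) := by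
  have h := Matrix.mem_unitaryGroup_iff.mp hu
  have h00 := congrFun (congrFun h false) false
  have h11 := congrFun (congrFun h true) true
  have h01 := congrFun (congrFun h false) true
  have h10 := congrFun (congrFun h true) false
  simp only [Matrix.mul_apply, Matrix.star_apply, Fintype.sum_bool, Matrix.one_apply_eq]
    at h00 h11
  simp only [Matrix.mul_apply, Matrix.star_apply, Fintype.sum_bool, ne_eq,
    not_false_eq_true, Matrix.one_apply_ne, Bool.false_eq_true, Bool.true_eq_false] at h01 h10
  simp only [RCLike.star_def] at h00 h11 h01 h10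
  exact ⟨by linear_combination h00, by linear_combination h11, by linear_combination h01,
    by linear_combination h10⟩

/-- The weighted Cauchy-Schwarz inequality with the weights two and one. -/
theorem rk_cs2 (f0 f1 g0 g1 : ℂ) :
    Complex.normSq (((2 : ℝ) : ℂ) * (g0 * (starRingEnd ℂ) f0) + g1 * (starRingEnd ℂ) f1) ≤
      (2 * Complex.normSq f0 + Complex.normSq f1)
        * (2 * Complex.normSq g0 + Complex.normSq g1) := by
  have h : Complex.normSq (((2 : ℝ) : ℂ) * (g0 * (starRingEnd ℂ) f0) + g1 * (starRingEnd ℂ) f1)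
      + 2 * Complex.normSq (f0 * g1 - f1 * g0) =
      (2 * Complex.normSq f0 + Complex.normSq f1)
        * (2 * Complex.normSq g0 + Complex.normSq g1) := by
    simp only [Complex.normSq_apply, Complex.mul_re, Complex.mul_im, Complex.add_re,
      Complex.add_im, Complex.sub_re, Complex.sub_im, Complex.conj_re, Complex.conj_im,
      Complex.ofReal_re, Complex.ofReal_im]
    ring
  have h2 := Complex.normSq_nonneg (f0 * g1 - f1 * g0)
  linarith

/-- The inequalities between the weighted sums, from the sums without weight. -/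
theorem rk_core (t : Bool) (f0 f1 g0 g1 : ℂ) (ρ s a c : ℝ) (β : ℂ)
    (h1 : Complex.normSq f0 + Complex.normSq f1 = ρ)
    (h2 : Complex.normSq g0 + Complex.normSq g1 = s)
    (h3 : g0 * (starRingEnd ℂ) f0 + g1 * (starRingEnd ℂ) f1 = (s : ℂ))
    (ha : a = wt t false * Complex.normSq f0 + wt t true * Complex.normSq f1)
    (hc : c = wt t false * Complex.normSq g0 + wt t true * Complex.normSq g1)
    (hβ : β = ((wt t false : ℝ) : ℂ) * (g0 * (starRingEnd ℂ) f0)
      + ((wt t true : ℝ) : ℂ) * (g1 * (starRingEnd ℂ) f1)) :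
    (0 ≤ ρ + a ∧ 0 ≤ ρ - a ∧ 0 ≤ s + c ∧ 0 ≤ s - c ∧
        Complex.normSq ((s : ℂ) + β) ≤ (ρ + a) * (s + c) ∧
        Complex.normSq ((s : ℂ) - β) ≤ (ρ - a) * (s - c)) ∧
      (t = false → 0 ≤ a ∧ 0 ≤ c ∧ Complex.normSq β ≤ a * c) := by
  have hf0 := Complex.normSq_nonneg f0
  have hf1 := Complex.normSq_nonneg f1
  have hg0 := Complex.normSq_nonneg g0
  have hg1 := Complex.normSq_nonneg g1
  cases t
  · have hw0 : wt false false = 1 := by simp [wt]
    have hw1 : wt false true = 0 := by simp [wt]
    rw [hw0, hw1] at ha hc hβ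
    have ha' : a = Complex.normSq f0 := by rw [ha]; ring
    have hc' : c = Complex.normSq g0 := by rw [hc]; ring
    have hβ' : β = g0 * (starRingEnd ℂ) f0 := by
      rw [hβ]
      push_cast
      ring
    have e1 : (s : ℂ) + β
        = ((2 : ℝ) : ℂ) * (g0 * (starRingEnd ℂ) f0) + g1 * (starRingEnd ℂ) f1 := by
      rw [hβ', ← h3]
      push_cast
      ring
    have e2 : (s : ℂ) - β = g1 * (starRingEnd ℂ) f1 := by
      rw [hβ', ← h3]
      ring
    refine ⟨⟨by linarith, by linarith, by linarith, by linarith, ?_, ?_⟩,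
      fun _ => ⟨by linarith, by linarith, ?_⟩⟩
    · rw [e1]
      have h4 := rk_cs2 f0 f1 g0 g1
      have h5 : (ρ + a) * (s + c) = (2 * Complex.normSq f0 + Complex.normSq f1)
          * (2 * Complex.normSq g0 + Complex.normSq g1) := by
        rw [ha', hc', ← h1, ← h2]
        ring
      rw [h5]
      exact h4
    · rw [e2, Complex.normSq_mul, Complex.normSq_conj, ha', hc', ← h1, ← h2]
      exact le_of_eq (by ring)
    · rw [hβ', Complex.normSq_mul, Complex.normSq_conj, ha', hc']
      exact le_of_eq (mul_comm _ _)
  · have hw0 : wt true false = 1 := by simp [wt]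
    have hw1 : wt true true = -1 := by simp [wt]
    rw [hw0, hw1] at ha hc hβ
    have e1 : (s : ℂ) + β = ((2 : ℝ) : ℂ) * (g0 * (starRingEnd ℂ) f0) := by
      rw [hβ]
      push_cast
      linear_combination (-1 : ℂ) * h3
    have e2 : (s : ℂ) - β = ((2 : ℝ) : ℂ) * (g1 * (starRingEnd ℂ) f1) := by
      rw [hβ]
      push_cast
      linear_combination (-1 : ℂ) * h3
    refine ⟨⟨by linarith, by linarith, by linarith, by linarith, ?_, ?_⟩,
      fun h => absurd h (by simp)⟩
    · rw [e1, Complex.normSq_mul, Complex.normSq_ofReal, Complex.normSq_mul,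
        Complex.normSq_conj, ha, hc, ← h1, ← h2]
      exact le_of_eq (by ring)
    · rw [e2, Complex.normSq_mul, Complex.normSq_ofReal, Complex.normSq_mul,
        Complex.normSq_conj, ha, hc, ← h1, ← h2]
      exact le_of_eq (by ring)

/-- The four one-qubit sums for the matrix `rowMat b r`: with `f y = r 0 * u 0 y + r 1 * u 1 y`
and `g y = r 1 * u 1 y`, they are the sums over `y` of `wt t y` times `|f y|^2`,
`g y * conj (f y)`, `f y * conj (g y)`, `|g y|^2`.  The same sums without the weight are
`ρ = |r 0|^2 + |r 1|^2`, `s = |r 1|^2`, `s`, `s`. -/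
theorem rowK_values (t b : Bool) (r : Bool → ℂ) (u : Matrix Bool Bool ℂ)
    (hr : Complex.normSq (r false) + Complex.normSq (r true) ≤ 1)
    (hu : u ∈ Matrix.unitaryGroup Bool ℂ) :
    ∃ (a c ρ s : ℝ) (β : ℂ),
      K0 (kap t (rowMat b r) u) = (a : ℂ) ∧ K1 (kap t (rowMat b r) u) = β ∧
      K2 (kap t (rowMat b r) u) = (starRingEnd ℂ) β ∧ K3 (kap t (rowMat b r) u) = (c : ℂ) ∧
      ρ ≤ 1 ∧
      (0 ≤ ρ + a ∧ 0 ≤ ρ - a ∧ 0 ≤ s + c ∧ 0 ≤ s - c ∧
        Complex.normSq ((s : ℂ) + β) ≤ (ρ + a) * (s + c) ∧
        Complex.normSq ((s : ℂ) - β) ≤ (ρ - a) * (s - c)) ∧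
      (t = false → 0 ≤ a ∧ 0 ≤ c ∧ Complex.normSq β ≤ a * c) := by
  obtain ⟨h00, h11, h01, h10⟩ := rk_unitary u hu
  have hK0 := rk_K0 t b r u
  have hK1 := rk_K1 t b r u
  have hK2 := rk_K2 t b r u
  have hK3 := rk_K3 t b r u
  obtain ⟨f0, hf0⟩ : ∃ f0, f0 = r false * u false false + r true * u true false := ⟨_, rfl⟩
  obtain ⟨f1, hf1⟩ : ∃ f1, f1 = r false * u false true + r true * u true true := ⟨_, rfl⟩
  obtain ⟨g0, hg0⟩ : ∃ g0, g0 = r true * u true false := ⟨_, rfl⟩
  obtain ⟨g1, hg1⟩ : ∃ g1, g1 = r true * u true true := ⟨_, rfl⟩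
  rw [← hf0, ← hf1] at hK0 hK1 hK2
  rw [← hg0, ← hg1] at hK1 hK2 hK3
  have c1 : f0 * (starRingEnd ℂ) f0 + f1 * (starRingEnd ℂ) f1
      = r false * (starRingEnd ℂ) (r false) + r true * (starRingEnd ℂ) (r true) := by
    rw [hf0, hf1]
    simp only [map_add, map_mul]
    linear_combination (r false * (starRingEnd ℂ) (r false)) * h00
      + (r true * (starRingEnd ℂ) (r true)) * h11
      + (r false * (starRingEnd ℂ) (r true)) * h01
      + (r true * (starRingEnd ℂ) (r false)) * h10
  have c2 : g0 * (starRingEnd ℂ) g0 + g1 * (starRingEnd ℂ) g1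
      = r true * (starRingEnd ℂ) (r true) := by
    rw [hg0, hg1]
    simp only [map_mul]
    linear_combination (r true * (starRingEnd ℂ) (r true)) * h11
  have c3 : g0 * (starRingEnd ℂ) f0 + g1 * (starRingEnd ℂ) f1
      = r true * (starRingEnd ℂ) (r true) := by
    rw [hg0, hg1, hf0, hf1]
    simp only [map_add, map_mul]
    linear_combination (r true * (starRingEnd ℂ) (r false)) * h10
      + (r true * (starRingEnd ℂ) (r true)) * h11
  have R1 : Complex.normSq f0 + Complex.normSq f1
      = Complex.normSq (r false) + Complex.normSq (r true) := by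
    apply Complex.ofReal_injective
    push_cast
    rw [← Complex.mul_conj, ← Complex.mul_conj, ← Complex.mul_conj, ← Complex.mul_conj]
    exact c1
  have R2 : Complex.normSq g0 + Complex.normSq g1 = Complex.normSq (r true) := by
    apply Complex.ofReal_injective
    push_cast
    rw [← Complex.mul_conj, ← Complex.mul_conj, ← Complex.mul_conj]
    exact c2
  have C3 : g0 * (starRingEnd ℂ) f0 + g1 * (starRingEnd ℂ) f1
      = ((Complex.normSq (r true) : ℝ) : ℂ) := by
    rw [← Complex.mul_conj]
    exact c3
  refine ⟨wt t false * Complex.normSq f0 + wt t true * Complex.normSq f1,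
    wt t false * Complex.normSq g0 + wt t true * Complex.normSq g1,
    Complex.normSq (r false) + Complex.normSq (r true), Complex.normSq (r true),
    ((wt t false : ℝ) : ℂ) * (g0 * (starRingEnd ℂ) f0)
      + ((wt t true : ℝ) : ℂ) * (g1 * (starRingEnd ℂ) f1), ?_, hK1, ?_, ?_, hr,
    rk_core t f0 f1 g0 g1 _ _ _ _ _ R1 R2 C3 rfl rfl rfl⟩
  · rw [hK0]
    push_cast
    rw [← Complex.mul_conj, ← Complex.mul_conj]
  · rw [hK2]
    simp only [map_add, map_mul, Complex.conj_conj, Complex.conj_ofReal]
    ring
  · rw [hK3]
    push_cast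
    rw [← Complex.mul_conj, ← Complex.mul_conj]

end Vale.Agent.Lib.P368
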