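import Vale.Agent.Lib.P368.Sq.Defs

/-!
# P368, depth two with the sharp exponent: the one-qubit sums for a unitary matrix
-/

namespace Vale.Agent.Lib.P368

open Finset

/-- The entries of `star m * m = 1` for a unitary matrix of size two. -/
theorem uk_cols (m : Matrix Bool Bool ℂ) (hm : m ∈ Matrix.unitaryGroup Bool ℂ) :
    (starRingEnd ℂ) (m false false) * m false false +
        (starRingEnd ℂ) (m true false) * m true false = 1 ∧
      (starRingEnd ℂ) (m false true) * m false true +
        (starRingEnd ℂ) (m true true) * m true true = 1 ∧
      (starRingEnd ℂ) (m false false) * m false true +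
        (starRingEnd ℂ) (m true false) * m true true = 0 ∧
      (starRingEnd ℂ) (m false true) * m false false +
        (starRingEnd ℂ) (m true true) * m true false = 0 := by
  have h := Matrix.mem_unitaryGroup_iff'.mp hm
  have h00 := congrFun (congrFun h false) false
  have h11 := congrFun (congrFun h true) true
  have h01 := congrFun (congrFun h false) true
  have h10 := congrFun (congrFun h true) false
  simp only [Matrix.mul_apply, Matrix.star_apply, Fintype.sum_bool, Matrix.one_apply_eq]
    at h00 h11
  simp only [Matrix.mul_apply, Matrix.star_apply, Fintype.sum_bool, ne_eq,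
    not_false_eq_true, Matrix.one_apply_ne, Bool.false_eq_true, Bool.true_eq_false] at h01 h10
  simp only [RCLike.star_def] at h00 h11 h01 h10
  refine ⟨?_, ?_, ?_, ?_⟩
  · linear_combination h00
  · linear_combination h11
  · linear_combination h01
  · linear_combination h10

theorem unitK_values (t : Bool) (m u : Matrix Bool Bool ℂ)
    (hm : m ∈ Matrix.unitaryGroup Bool ℂ) (hu : u ∈ Matrix.unitaryGroup Bool ℂ) :
    ∃ c : ℝ, K0 (kap t m u) = (if t = true then (0 : ℂ) else 1) ∧ K1 (kap t m u) = (c : ℂ) ∧
      K2 (kap t m u) = (c : ℂ) ∧ K3 (kap t m u) = (c : ℂ) ∧ |c| ≤ 1 ∧ (t = false → 0 ≤ c) := by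
  obtain ⟨c00, c11, c01, c10⟩ := uk_cols m hm
  obtain ⟨d00, d11, d01, d10⟩ := uk_cols u hu
  have hrow := sg_row_true u hu
  have hn0 := Complex.normSq_nonneg (u true false)
  have hn1 := Complex.normSq_nonneg (u true true)
  refine ⟨wt t false * Complex.normSq (u true false) + wt t true * Complex.normSq (u true true),
    ?_, ?_, ?_, ?_, ?_, ?_⟩
  · rw [sg_K0_eq]
    have e0 : sg_N m u false = 1 := by
      unfold sg_N
      rw [sb_unitary_norm m hm, sg_col u hu]
    have e1 : sg_N m u true = 1 := by
      unfold sg_N
      rw [sb_unitary_norm m hm, sg_col u hu]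
    rw [e0, e1]
    cases t <;> simp [wt]
  · simp only [K1, kap, Fintype.sum_prod_type, Fintype.sum_bool]
    simp only [Bool.false_eq_true, if_false, if_true]
    push_cast
    simp only [Complex.normSq_eq_conj_mul_self]
    linear_combination
      ((wt t false : ℂ) * u true false * (starRingEnd ℂ) (u true false) +
        (wt t true : ℂ) * u true true * (starRingEnd ℂ) (u true true)) * c11 +
      ((wt t false : ℂ) * u true false * (starRingEnd ℂ) (u false false) +
        (wt t true : ℂ) * u true true * (starRingEnd ℂ) (u false true)) * c01
  · simp only [K2, kap, Fintype.sum_prod_type, Fintype.sum_bool]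
    simp only [Bool.false_eq_true, if_false, if_true]
    push_cast
    simp only [Complex.normSq_eq_conj_mul_self]
    linear_combination
      ((wt t false : ℂ) * u true false * (starRingEnd ℂ) (u true false) +
        (wt t true : ℂ) * u true true * (starRingEnd ℂ) (u true true)) * c11 +
      ((wt t false : ℂ) * u false false * (starRingEnd ℂ) (u true false) +
        (wt t true : ℂ) * u false true * (starRingEnd ℂ) (u true true)) * c10
  · rw [sg_K3_eq, sg_col m hm true]
    push_cast
    ring
  · rw [abs_le]
    cases t
    · simp only [wt, Bool.false_eq_true, if_false, if_true]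
      constructor <;> linarith
    · simp only [wt, Bool.false_eq_true, if_false, if_true]
      constructor <;> linarith
  · intro ht
    subst ht
    simp only [wt, Bool.false_eq_true, if_false, if_true]
    linarith

end Vale.Agent.Lib.P368
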