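import Vale.Agent.Lib.P368.Sq.Schur
import Vale.Agent.Lib.P368.Sq.RowK
import Vale.Agent.Lib.P368.Sq.UnitK

/-!
# P368, depth two with the sharp exponent: the contribution of one gate of the first layer
-/

namespace Vale.Agent.Lib.P368

open Finset

variable {Q : Type} [Fintype Q] [DecidableEq Q]

omit [Fintype Q] [DecidableEq Q] in
/-- The gate sum when the one-qubit sums are known on the two parts of the gate. -/
theorem gt_gateSum_eq (κ : Q → Cfg → ℂ) (A : Finset Q) (P : Q → Prop) [DecidablePred P]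
    (a c : Q → ℝ) (β : Q → ℂ) (dd ν : Q → ℝ)
    (h1 : ∀ p ∈ A.filter P, K0 (κ p) = (a p : ℂ) ∧ K1 (κ p) = β p ∧
      K2 (κ p) = (starRingEnd ℂ) (β p) ∧ K3 (κ p) = (c p : ℂ))
    (h2 : ∀ p ∈ A.filter (fun p => ¬ P p), K0 (κ p) = (ν p : ℂ) ∧ K1 (κ p) = (dd p : ℂ) ∧
      K2 (κ p) = (dd p : ℂ) ∧ K3 (κ p) = (dd p : ℂ)) :
    gateSum κ A = (((∏ p ∈ A.filter (fun p => ¬ P p), ν p) * (∏ p ∈ A.filter P, a p)
      + (∏ p ∈ A.filter (fun p => ¬ P p), dd p)
        * ((∏ p ∈ A.filter P, a p - 4 * (∏ p ∈ A.filter P, β p).re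
            + 4 * ∏ p ∈ A.filter P, c p) - ∏ p ∈ A.filter P, a p) : ℝ) : ℂ) := by
  unfold gateSum
  rw [← Finset.prod_filter_mul_prod_filter_not A P (fun p => K0 (κ p)),
    ← Finset.prod_filter_mul_prod_filter_not A P (fun p => K1 (κ p)),
    ← Finset.prod_filter_mul_prod_filter_not A P (fun p => K2 (κ p)),
    ← Finset.prod_filter_mul_prod_filter_not A P (fun p => K3 (κ p))]
  rw [Finset.prod_congr rfl (fun p hp => (h1 p hp).1),
    Finset.prod_congr rfl (fun p hp => (h1 p hp).2.1),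
    Finset.prod_congr rfl (fun p hp => (h1 p hp).2.2.1),
    Finset.prod_congr rfl (fun p hp => (h1 p hp).2.2.2),
    Finset.prod_congr rfl (fun p hp => (h2 p hp).1),
    Finset.prod_congr rfl (fun p hp => (h2 p hp).2.1),
    Finset.prod_congr rfl (fun p hp => (h2 p hp).2.2.1),
    Finset.prod_congr rfl (fun p hp => (h2 p hp).2.2.2)]
  rw [← map_prod (starRingEnd ℂ)]
  have hconj : (starRingEnd ℂ) (∏ p ∈ A.filter P, β p)
      = ((2 * (∏ p ∈ A.filter P, β p).re : ℝ) : ℂ) - ∏ p ∈ A.filter P, β p := by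
    rw [← Complex.add_conj]
    ring
  rw [hconj]
  push_cast
  ring

/-- No input qubit on the unitary part. -/
theorem gt_case1 (D a1 g1 : ℝ) (ha : |a1| ≤ 1) (hg : |g1| ≤ 1) (hD0 : 0 ≤ D) (hD1 : D ≤ 1) :
    |1 * a1 + D * (g1 - a1)| ≤ 1 := by
  obtain ⟨ha1, ha2⟩ := abs_le.mp ha
  obtain ⟨hg1, hg2⟩ := abs_le.mp hg
  rw [abs_le]
  constructor
  · nlinarith [mul_nonneg (sub_nonneg.2 hD1) (by linarith : (0 : ℝ) ≤ 1 + a1),
      mul_nonneg hD0 (by linarith : (0 : ℝ) ≤ 1 + g1)]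
  · nlinarith [mul_nonneg (sub_nonneg.2 hD1) (by linarith : (0 : ℝ) ≤ 1 - a1),
      mul_nonneg hD0 (by linarith : (0 : ℝ) ≤ 1 - g1)]

/-- An input qubit on the unitary part, none on the row part. -/
theorem gt_case2a (D a1 g1 : ℝ) (ha0 : 0 ≤ a1) (ha1 : a1 ≤ 1) (hg0 : 0 ≤ g1) (hg1 : g1 ≤ 1)
    (hD : |D| ≤ 1) : |0 * a1 + D * (g1 - a1)| ≤ 1 := by
  rw [zero_mul, zero_add, abs_mul]
  have h : |g1 - a1| ≤ 1 := abs_le.mpr ⟨by linarith, by linarith⟩
  exact mul_le_one₀ hD (abs_nonneg _) h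

/-- An input qubit on each part. -/
theorem gt_case2b (D a1 g1 : ℝ) (ha : |a1| ≤ 1) (hg : |g1| ≤ 1) (hD : |D| ≤ 1) :
    |0 * a1 + D * (g1 - a1)| ≤ 2 := by
  rw [zero_mul, zero_add, abs_mul]
  have h : |g1 - a1| ≤ 2 := le_trans (abs_sub g1 a1) (by linarith)
  have h2 := mul_le_mul hD h (abs_nonneg _) zero_le_one
  linarith

/-- The contribution of one gate `A` when every one-qubit matrix applied after it is unitary or
has a single row of norm at most one: at most `1` in modulus if `A` contains at most one input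
qubit, and at most `2` in general. -/
theorem norm_gateSum_row_le (τ : Q → Bool) (m u : Q → Matrix Bool Bool ℂ) (A : Finset Q)
    (hm : ∀ p ∈ A, IsRow (m p) ∨ m p ∈ Matrix.unitaryGroup Bool ℂ)
    (hu : ∀ p ∈ A, u p ∈ Matrix.unitaryGroup Bool ℂ) :
    ‖gateSum (fun p => kap (τ p) (m p) (u p)) A‖ ≤
      if (A.filter fun p => τ p = true).card ≤ 1 then 1 else 2 := by
  have _hfin : Fintype Q := inferInstance
  classical
  have key1 : ∀ p, ∃ (a c ρ s : ℝ) (β : ℂ), p ∈ A.filter (fun p => IsRow (m p)) →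
      (K0 (kap (τ p) (m p) (u p)) = (a : ℂ) ∧ K1 (kap (τ p) (m p) (u p)) = β ∧
      K2 (kap (τ p) (m p) (u p)) = (starRingEnd ℂ) β ∧
      K3 (kap (τ p) (m p) (u p)) = (c : ℂ) ∧ ρ ≤ 1 ∧
      (0 ≤ ρ + a ∧ 0 ≤ ρ - a ∧ 0 ≤ s + c ∧ 0 ≤ s - c ∧
        Complex.normSq ((s : ℂ) + β) ≤ (ρ + a) * (s + c) ∧
        Complex.normSq ((s : ℂ) - β) ≤ (ρ - a) * (s - c)) ∧
      (τ p = false → 0 ≤ a ∧ 0 ≤ c ∧ Complex.normSq β ≤ a * c)) := by
    intro p
    by_cases hp : p ∈ A.filter (fun p => IsRow (m p))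
    · obtain ⟨hpA, b, r, hr, hmr⟩ := Finset.mem_filter.1 hp
      obtain ⟨a, c, ρ, s, β, h⟩ := rowK_values (τ p) b r (u p) hr (hu p hpA)
      refine ⟨a, c, ρ, s, β, fun _ => ?_⟩
      rw [hmr]
      exact h
    · exact ⟨0, 0, 0, 0, 0, fun h => absurd h hp⟩
  choose a c ρ s β hrow using key1
  have key2 : ∀ p, ∃ dd : ℝ, p ∈ A.filter (fun p => ¬ IsRow (m p)) →
      (K0 (kap (τ p) (m p) (u p)) = (if τ p = true then (0 : ℂ) else 1) ∧
      K1 (kap (τ p) (m p) (u p)) = (dd : ℂ) ∧ K2 (kap (τ p) (m p) (u p)) = (dd : ℂ) ∧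
      K3 (kap (τ p) (m p) (u p)) = (dd : ℂ) ∧ |dd| ≤ 1 ∧ (τ p = false → 0 ≤ dd)) := by
    intro p
    by_cases hp : p ∈ A.filter (fun p => ¬ IsRow (m p))
    · obtain ⟨hpA, hnr⟩ := Finset.mem_filter.1 hp
      obtain ⟨dd, h⟩ := unitK_values (τ p) (m p) (u p) ((hm p hpA).resolve_left hnr)
        (hu p hpA)
      exact ⟨dd, fun _ => h⟩
    · exact ⟨0, fun h => absurd h hp⟩
  choose dd hunit using key2
  have hform := gt_gateSum_eq (fun p => kap (τ p) (m p) (u p)) A (fun p => IsRow (m p))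
    a c β dd (fun p => if τ p = true then (0 : ℝ) else 1)
    (fun p hp => ⟨(hrow p hp).1, (hrow p hp).2.1, (hrow p hp).2.2.1, (hrow p hp).2.2.2.1⟩)
    (fun p hp => ⟨by
      rw [(hunit p hp).1]
      split_ifs <;> simp, (hunit p hp).2.1, (hunit p hp).2.2.1, (hunit p hp).2.2.2.1⟩)
  rw [hform, Complex.norm_real, Real.norm_eq_abs]
  have hρ : ∀ p ∈ A.filter (fun p => IsRow (m p)), 0 ≤ ρ p ∧ ρ p ≤ 1 ∧ |a p| ≤ ρ p := by
    intro p hp
    obtain ⟨-, -, -, -, hρ1, ⟨h1, h2, -⟩, -⟩ := hrow p hp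
    exact ⟨by linarith, hρ1, abs_le.mpr ⟨by linarith, by linarith⟩⟩
  have hρprod : ∏ p ∈ A.filter (fun p => IsRow (m p)), ρ p ≤ 1 :=
    Finset.prod_le_one (fun p hp => (hρ p hp).1) (fun p hp => (hρ p hp).2.1)
  have ha1 : |∏ p ∈ A.filter (fun p => IsRow (m p)), a p| ≤ 1 := by
    rw [Finset.abs_prod]
    exact le_trans (Finset.prod_le_prod (fun p _ => abs_nonneg _)
      (fun p hp => (hρ p hp).2.2)) hρprod
  have hg1 : |∏ p ∈ A.filter (fun p => IsRow (m p)), a p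
      - 4 * (∏ p ∈ A.filter (fun p => IsRow (m p)), β p).re
      + 4 * ∏ p ∈ A.filter (fun p => IsRow (m p)), c p| ≤ 1 :=
    le_trans (schur_gate_bound (A.filter (fun p => IsRow (m p))) a c ρ s β
      (fun p hp => (hrow p hp).2.2.2.2.2.1)) hρprod
  have hD : |∏ p ∈ A.filter (fun p => ¬ IsRow (m p)), dd p| ≤ 1 := by
    rw [Finset.abs_prod]
    exact Finset.prod_le_one (fun p _ => abs_nonneg _) (fun p hp => (hunit p hp).2.2.2.2.1)
  by_cases h2 : ∃ p ∈ A.filter (fun p => ¬ IsRow (m p)), τ p = true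
  · obtain ⟨p2, hp2, hτ2⟩ := h2
    have hN : ∏ p ∈ A.filter (fun p => ¬ IsRow (m p)), (if τ p = true then (0 : ℝ) else 1)
        = 0 := Finset.prod_eq_zero hp2 (by rw [if_pos hτ2])
    rw [hN]
    by_cases h1 : ∃ p ∈ A.filter (fun p => IsRow (m p)), τ p = true
    · obtain ⟨p1, hp1, hτ1⟩ := h1
      have hne : p1 ≠ p2 := by
        rintro rfl
        exact (Finset.mem_filter.1 hp2).2 (Finset.mem_filter.1 hp1).2
      have hb := gt_case2b _ _ _ ha1 hg1 hD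
      split_ifs with hcard
      · exact absurd hcard (not_le.mpr (Finset.one_lt_card.mpr
          ⟨p1, Finset.mem_filter.2 ⟨(Finset.mem_filter.1 hp1).1, hτ1⟩,
            p2, Finset.mem_filter.2 ⟨(Finset.mem_filter.1 hp2).1, hτ2⟩, hne⟩))
      · exact hb
    · have hτ : ∀ p ∈ A.filter (fun p => IsRow (m p)), τ p = false := by
        intro p hp
        by_contra hcon
        exact h1 ⟨p, hp, by simpa using hcon⟩
      have hpos : ∀ p ∈ A.filter (fun p => IsRow (m p)),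
          0 ≤ a p ∧ 0 ≤ c p ∧ Complex.normSq (β p) ≤ a p * c p :=
        fun p hp => (hrow p hp).2.2.2.2.2.2 (hτ p hp)
      have ha0 : 0 ≤ ∏ p ∈ A.filter (fun p => IsRow (m p)), a p :=
        Finset.prod_nonneg (fun p hp => (hpos p hp).1)
      have hg0 := schur_gate_nonneg (A.filter (fun p => IsRow (m p))) a c β hpos
      have hb := gt_case2a _ _ _ ha0 (abs_le.mp ha1).2 hg0 (abs_le.mp hg1).2 hD
      split_ifs
      · exact hb
      · linarith
  · have hτ : ∀ p ∈ A.filter (fun p => ¬ IsRow (m p)), τ p = false := by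
      intro p hp
      by_contra hcon
      exact h2 ⟨p, hp, by simpa using hcon⟩
    have hN : ∏ p ∈ A.filter (fun p => ¬ IsRow (m p)), (if τ p = true then (0 : ℝ) else 1)
        = 1 := by
      apply Finset.prod_eq_one
      intro p hp
      rw [hτ p hp]
      simp
    rw [hN]
    have hD0 : 0 ≤ ∏ p ∈ A.filter (fun p => ¬ IsRow (m p)), dd p :=
      Finset.prod_nonneg (fun p hp => (hunit p hp).2.2.2.2.2 (hτ p hp))
    have hb := gt_case1 _ _ _ ha1 hg1 hD0 (abs_le.mp hD).2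
    split_ifs
    · exact hb
    · linarith

end Vale.Agent.Lib.P368
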