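import Vale.Agent.Lib.P368.Tof.Main

/-!
# P368, depth two with the sharp exponent: the circuit that computes the conjunction of the
parities of `m` disjoint pairs of input bits

The qubits are `some (i, b)` for `i : Fin m`, `b : Bool` (the input bits) and `none` (the output
qubit).  The first layer applies, for every `i`, the generalized Toffoli gate with the single
control `some (i, false)` and target `some (i, true)`; the second layer is one generalized
Toffoli gate with controls `some (i, true)` for all `i` and target `none`.
-/

namespace Vale.Agent.Lib.P368

open Finset

/-- The two-layer circuit described above. -/
def pairCircuit (m : ℕ) : List (List (TGate (Option (Fin m × Bool)))) :=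
  [(List.finRange m).map fun i => Sum.inr ({some (i, false)}, some (i, true)),
    [Sum.inr ((Finset.univ : Finset (Fin m)).image fun i => some (i, true), none)]]

end Vale.Agent.Lib.P368
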