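import Vale.Agent.Lib.P368.Sq.PairProb

/-!
# P368: the parity correlation of the pair circuit
-/

namespace Vale.Agent.Lib.P368

open Finset

/-- The signs of all inputs on a nonempty set of bits sum to zero. -/
theorem pc_sum_sgn (m : ℕ) (hm : 1 ≤ m) : ∑ x : Fin m × Bool → Bool, sgn x = 0 := by
  have h := sum_prod_eq_prod_sum_real
    (fun (_ : Fin m × Bool) (b : Bool) => if b = true then (-1 : ℝ) else 1)
  unfold sgn
  refine h.trans ?_
  apply Finset.prod_eq_zero (Finset.mem_univ ((⟨0, hm⟩ : Fin m), false))
  simp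

/-- The weight of one pair of bits. -/
noncomputable def pc_k (b b' : Bool) : ℝ :=
  (if b = true then (-1 : ℝ) else 1) * (if b' = true then (-1 : ℝ) else 1) *
    (if b ≠ b' then 1 else 0)

/-- The four functions on one pair: total weight `-2`. -/
theorem pc_sum_k : ∑ v : Bool → Bool, pc_k (v true) (v false) = -2 := by
  have h : ∑ v : Bool → Bool, pc_k (v true) (v false) =
      ∑ q : Bool × Bool, pc_k q.2 q.1 :=
    Fintype.sum_equiv (Equiv.boolArrowEquivProd Bool) _ _ (fun v => rfl)
  rw [h, Fintype.sum_prod_type]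
  simp [pc_k]
  norm_num

/-- The sign times the indicator of the pair predicate is a product over the pairs. -/
theorem pc_sgn_ind (m : ℕ) (x : Fin m × Bool → Bool) :
    sgn x * (if ∀ i : Fin m, x (i, true) ≠ x (i, false) then (1 : ℝ) else 0) =
      ∏ i : Fin m, pc_k (x (i, true)) (x (i, false)) := by
  have h1 : sgn x = ∏ i : Fin m,
      ((if x (i, true) = true then (-1 : ℝ) else 1) * (if x (i, false) = true then (-1 : ℝ) else 1)) := by
    unfold sgn
    rw [Fintype.prod_prod_type]
    apply Finset.prod_congr rfl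
    intro i _
    rw [Fintype.prod_bool]
  have h2 : (if ∀ i : Fin m, x (i, true) ≠ x (i, false) then (1 : ℝ) else 0) =
      ∏ i : Fin m, (if x (i, true) ≠ x (i, false) then (1 : ℝ) else 0) := by
    by_cases hP : ∀ i : Fin m, x (i, true) ≠ x (i, false)
    · rw [if_pos hP]
      symm
      apply Finset.prod_eq_one
      intro i _
      rw [if_pos (hP i)]
    · rw [if_neg hP]
      obtain ⟨i, hi⟩ := not_forall.mp hP
      symm
      apply Finset.prod_eq_zero (Finset.mem_univ i)
      rw [if_neg hi]
  rw [h1, h2, ← Finset.prod_mul_distrib]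
  rfl

/-- The signed count of the inputs satisfying the pair predicate. -/
theorem pc_sum_sgn_ind (m : ℕ) :
    ∑ x : Fin m × Bool → Bool,
        sgn x * (if ∀ i : Fin m, x (i, true) ≠ x (i, false) then (1 : ℝ) else 0) =
      (-2) ^ m := by
  have h1 : ∑ x : Fin m × Bool → Bool,
        sgn x * (if ∀ i : Fin m, x (i, true) ≠ x (i, false) then (1 : ℝ) else 0) =
      ∑ x : Fin m × Bool → Bool, ∏ i : Fin m, pc_k (x (i, true)) (x (i, false)) :=
    Finset.sum_congr rfl (fun x _ => pc_sgn_ind m x)
  have h2 : ∑ x : Fin m × Bool → Bool, ∏ i : Fin m, pc_k (x (i, true)) (x (i, false)) =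
      ∑ y : Fin m → Bool → Bool, ∏ i : Fin m, pc_k (y i true) (y i false) :=
    Fintype.sum_equiv (Equiv.curry (Fin m) Bool Bool) _ _ (fun x => rfl)
  have h3 : ∑ y : Fin m → Bool → Bool, ∏ i : Fin m, pc_k (y i true) (y i false) =
      ∏ _i : Fin m, ∑ v : Bool → Bool, pc_k (v true) (v false) := by
    have h := Finset.prod_univ_sum (fun _ : Fin m => (Finset.univ : Finset (Bool → Bool)))
      (fun (_ : Fin m) (v : Bool → Bool) => pc_k (v true) (v false))
    rw [Fintype.piFinset_univ] at h
    exact h.symm
  rw [h1, h2, h3, Finset.prod_const, pc_sum_k, Finset.card_univ, Fintype.card_fin]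

/-- One input: the difference of the two output probabilities. -/
theorem pc_diff (m : ℕ) (x : Fin m × Bool → Bool) :
    tOutProb (pairCircuit m) (Function.Embedding.some : (Fin m × Bool) ↪ Option (Fin m × Bool))
        none x (parity x) -
      tOutProb (pairCircuit m) (Function.Embedding.some : (Fin m × Bool) ↪ Option (Fin m × Bool))
        none x (!parity x) =
      sgn x - 2 * (sgn x * (if ∀ i : Fin m, x (i, true) ≠ x (i, false) then (1 : ℝ) else 0)) := by
  rw [pair_tOutProb, pair_tOutProb, sgn_eq_parity]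
  by_cases hP : ∀ i : Fin m, x (i, true) ≠ x (i, false)
  · cases hp : parity x <;> simp [hP] <;> norm_num
  · cases hp : parity x <;> simp [hP]

/-- The parity correlation of the pair circuit on its `2 * m` input bits is `2 / 2 ^ m` in
absolute value. -/
theorem pair_corr (m : ℕ) (hm : 1 ≤ m) :
    |tParityCorrelation (pairCircuit m)
        (Function.Embedding.some : (Fin m × Bool) ↪ Option (Fin m × Bool)) none| =
      2 / 2 ^ m := by
  unfold tParityCorrelation
  have hsum : ∑ x : Fin m × Bool → Bool,
      (tOutProb (pairCircuit m)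
          (Function.Embedding.some : (Fin m × Bool) ↪ Option (Fin m × Bool)) none x (parity x) -
        tOutProb (pairCircuit m)
          (Function.Embedding.some : (Fin m × Bool) ↪ Option (Fin m × Bool)) none x (!parity x)) =
      -2 * (-2 : ℝ) ^ m := by
    rw [Finset.sum_congr rfl (fun x _ => pc_diff m x), Finset.sum_sub_distrib, ← Finset.mul_sum,
      pc_sum_sgn m hm, pc_sum_sgn_ind m]
    ring
  have hcard : ((2 ^ Fintype.card (Fin m × Bool) : ℕ) : ℝ) = 2 ^ m * 2 ^ m := by
    rw [Fintype.card_prod, Fintype.card_fin, Fintype.card_bool]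
    push_cast
    rw [pow_mul, sq]
  rw [hsum, hcard, abs_div, abs_mul, abs_pow, abs_neg]
  have h2 : |(2 : ℝ)| = 2 := abs_of_pos (by norm_num)
  have hpos : (0 : ℝ) < 2 ^ m := by positivity
  rw [h2, abs_of_pos (mul_pos hpos hpos)]
  field_simp

end Vale.Agent.Lib.P368
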