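import Vale.Agent.Lib.P368.Sq.PairRun

/-!
# P368: the output probabilities of the pair circuit
-/

namespace Vale.Agent.Lib.P368

open Finset

/-- Measuring a qubit of a basis state gives the bit of that basis state with certainty. -/
theorem pp_measProb_basisState {Q : Type} [Fintype Q] [DecidableEq Q] (z' : Q → Bool) (q : Q)
    (b : Bool) : measProb (basisState z') q b = if z' q = b then 1 else 0 := by
  unfold measProb basisState
  rw [Finset.sum_eq_single z']
  · simp
  · intro w _ hw
    simp [hw]
  · intro h
    exact absurd (Finset.mem_univ _) h

/-- On the input `x` the pair circuit outputs, with certainty, the bit that tells whether the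
two bits of every pair differ. -/
theorem pair_tOutProb (m : ℕ) (x : Fin m × Bool → Bool) (b : Bool) :
    tOutProb (pairCircuit m) (Function.Embedding.some : (Fin m × Bool) ↪ Option (Fin m × Bool))
        none x b =
      if decide (∀ i : Fin m, x (i, true) ≠ x (i, false)) = b then 1 else 0 := by
  have hsome : ∀ a : Fin m × Bool,
      Function.extend
        ((Function.Embedding.some : (Fin m × Bool) ↪ Option (Fin m × Bool)) :
          Fin m × Bool → Option (Fin m × Bool)) x (fun _ => false) (some a) = x a := by
    intro a
    exact Function.Injective.extend_apply (Option.some_injective _) x (fun _ => false) a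
  have hnone : Function.extend
        ((Function.Embedding.some : (Fin m × Bool) ↪ Option (Fin m × Bool)) :
          Fin m × Bool → Option (Fin m × Bool)) x (fun _ => false) none = false := by
    rw [Function.extend_apply']
    rintro ⟨a, ha⟩
    cases ha
  obtain ⟨z', hz', hz'n⟩ := pairCircuit_basisState m
    (Function.extend
        ((Function.Embedding.some : (Fin m × Bool) ↪ Option (Fin m × Bool)) :
          Fin m × Bool → Option (Fin m × Bool)) x (fun _ => false))
  unfold tOutProb
  rw [hz', pp_measProb_basisState, hz'n, hnone, Bool.false_xor]
  simp only [hsome]

end Vale.Agent.Lib.P368
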