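import Vale.Agent.Lib.P368.Sq.Pair

/-!
# P368: the pair circuit maps basis states to basis states
-/

namespace Vale.Agent.Lib.P368

open Finset

/-- The classical map of a generalized Toffoli gate is an involution when the target is not a
control. -/
theorem pr_invol {Q : Type} [Fintype Q] [DecidableEq Q] (c : Finset Q) (t : Q) (ht : t ∉ c) (w : Q → Bool) :
    (if ∀ p ∈ c, (if ∀ p ∈ c, w p = true then Function.update w t (!w t) else w) p = true then
        Function.update (if ∀ p ∈ c, w p = true then Function.update w t (!w t) else w) t
          (!(if ∀ p ∈ c, w p = true then Function.update w t (!w t) else w) t)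
      else (if ∀ p ∈ c, w p = true then Function.update w t (!w t) else w)) = w := by
  by_cases h : ∀ p ∈ c, w p = true
  · have h' : ∀ p ∈ c, Function.update w t (!w t) p = true := by
      intro p hp
      have hpt : p ≠ t := fun e => ht (e ▸ hp)
      rw [Function.update_of_ne hpt]
      exact h p hp
    rw [if_pos h, if_pos h']
    funext q
    by_cases hq : q = t
    · subst hq
      simp
    · simp [Function.update_of_ne hq]
  · rw [if_neg h, if_neg h]

/-- A generalized Toffoli gate maps a basis state to a basis state. -/
theorem act_toffoli_basisState {Q : Type} [Fintype Q] [DecidableEq Q] (c : Finset Q) (t : Q)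
    (ht : t ∉ c) (z : Q → Bool) :
    TGate.act (Sum.inr (c, t)) (basisState z) =
      basisState (if ∀ p ∈ c, z p = true then Function.update z t (!z t) else z) := by
  funext w
  have hinv := pr_invol c t ht
  show basisState z (if ∀ p ∈ c, w p = true then Function.update w t (!w t) else w) =
    basisState (if ∀ p ∈ c, z p = true then Function.update z t (!z t) else z) w
  unfold basisState
  by_cases h1 : (if ∀ p ∈ c, w p = true then Function.update w t (!w t) else w) = z
  · have h2 : w = (if ∀ p ∈ c, z p = true then Function.update z t (!z t) else z) := by
      rw [← h1]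
      exact (hinv w).symm
    rw [if_pos h1, if_pos h2]
  · have h2 : ¬ w = (if ∀ p ∈ c, z p = true then Function.update z t (!z t) else z) := by
      intro e
      apply h1
      rw [e]
      exact hinv z
    rw [if_neg h1, if_neg h2]

/-- The first layer of the pair circuit, restricted to a duplicate-free list of pairs, maps the
basis state `z` to a basis state that agrees with `z` on the control bits and on the output
qubit and carries the parity of the pair on the target bit of every pair of the list. -/
theorem pr_layer1 (m : ℕ) (l : List (Fin m)) (hl : l.Nodup)
    (z : Option (Fin m × Bool) → Bool) :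
    ∃ z1 : Option (Fin m × Bool) → Bool,
      layerAct (l.map fun i =>
          (Sum.inr ({some (i, false)}, some (i, true)) : TGate (Option (Fin m × Bool))))
        (basisState z) = basisState z1 ∧
      (∀ i, z1 (some (i, false)) = z (some (i, false))) ∧ z1 none = z none ∧
      (∀ i, z1 (some (i, true)) =
        if i ∈ l then (z (some (i, true)) != z (some (i, false))) else z (some (i, true))) := by
  induction l generalizing z with
  | nil => exact ⟨z, rfl, fun _ => rfl, rfl, fun i => by simp⟩
  | cons a l ih =>
    have ha : a ∉ l := (List.nodup_cons.mp hl).1
    have hl' : l.Nodup := (List.nodup_cons.mp hl).2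
    have hstep := act_toffoli_basisState
      ({some (a, false)} : Finset (Option (Fin m × Bool))) (some (a, true)) (by simp) z
    have hz0 : ∃ z0 : Option (Fin m × Bool) → Bool, z0 =
        (if ∀ p ∈ ({some (a, false)} : Finset (Option (Fin m × Bool))), z p = true then
          Function.update z (some (a, true)) (!z (some (a, true))) else z) := ⟨_, rfl⟩
    obtain ⟨z0, hz0⟩ := hz0
    rw [← hz0] at hstep
    have e1 : ∀ i, z0 (some (i, false)) = z (some (i, false)) := by
      intro i
      rw [hz0]
      split_ifs
      · exact Function.update_of_ne (by simp) _ _
      · rfl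
    have e2 : z0 none = z none := by
      rw [hz0]
      split_ifs
      · exact Function.update_of_ne (by simp) _ _
      · rfl
    have e3 : ∀ i, i ≠ a → z0 (some (i, true)) = z (some (i, true)) := by
      intro i hi
      rw [hz0]
      split_ifs
      · exact Function.update_of_ne (by simpa using hi) _ _
      · rfl
    have e4 : z0 (some (a, true)) = (z (some (a, true)) != z (some (a, false))) := by
      rw [hz0]
      by_cases hc : z (some (a, false)) = true
      · rw [if_pos (by simpa using hc)]
        simp [hc]
      · rw [if_neg (by simpa using hc)]
        simp only [Bool.not_eq_true] at hc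
        simp [hc]
    obtain ⟨z1, h1, h2, h3, h4⟩ := ih hl' z0
    refine ⟨z1, ?_, ?_, ?_, ?_⟩
    · rw [← h1, ← hstep]
      rfl
    · intro i
      rw [h2 i, e1 i]
    · rw [h3, e2]
    · intro i
      rw [h4 i]
      by_cases hia : i = a
      · subst hia
        rw [if_neg ha, if_pos (List.mem_cons_self), e4]
      · rw [e3 i hia, e1 i]
        by_cases hil : i ∈ l
        · rw [if_pos hil, if_pos (List.mem_cons_of_mem _ hil)]
        · rw [if_neg hil, if_neg (by simp [hia, hil])]

/-- The pair circuit maps the basis state `z` to a basis state whose bit on the output qubit is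
the bit of `z` there, flipped iff the two bits of every pair differ. -/
theorem pairCircuit_basisState (m : ℕ) (z : Option (Fin m × Bool) → Bool) :
    ∃ z' : Option (Fin m × Bool) → Bool,
      tRun (pairCircuit m) (basisState z) = basisState z' ∧
      z' none = xor (z none) (decide (∀ i : Fin m, z (some (i, true)) ≠ z (some (i, false)))) := by
  obtain ⟨z1, h1, _, h3, h4⟩ := pr_layer1 m (List.finRange m) (List.nodup_finRange m) z
  have hnone : (none : Option (Fin m × Bool)) ∉
      (Finset.univ : Finset (Fin m)).image (fun i => some (i, true)) := by simp
  have hstep := act_toffoli_basisState _ _ hnone z1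
  have hcond : (∀ p ∈ (Finset.univ : Finset (Fin m)).image (fun i => some (i, true)),
      z1 p = true) ↔ ∀ i : Fin m, z (some (i, true)) ≠ z (some (i, false)) := by
    constructor
    · intro h i
      have h5 := h (some (i, true)) (Finset.mem_image_of_mem _ (Finset.mem_univ i))
      rw [h4 i, if_pos (List.mem_finRange i)] at h5
      simpa using h5
    · intro h p hp
      obtain ⟨i, -, rfl⟩ := Finset.mem_image.mp hp
      rw [h4 i, if_pos (List.mem_finRange i)]
      simpa using h i
  refine ⟨(if ∀ p ∈ (Finset.univ : Finset (Fin m)).image (fun i => some (i, true)),
      z1 p = true then Function.update z1 none (!z1 none) else z1), ?_, ?_⟩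
  · rw [← hstep, ← h1]
    rfl
  · by_cases hc : ∀ p ∈ (Finset.univ : Finset (Fin m)).image (fun i => some (i, true)),
        z1 p = true
    · rw [if_pos hc, Function.update_self, h3, decide_eq_true (hcond.mp hc)]
      simp
    · rw [if_neg hc, h3, decide_eq_false (fun h => hc (hcond.mpr h))]
      simp

end Vale.Agent.Lib.P368
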