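import Mathlib

/-!
# P368, depth two with the sharp exponent: entrywise products of `2 × 2` Hermitian matrices

The Hermitian matrix with diagonal entries `p`, `r` (real) and off-diagonal entry `q` is
positive semidefinite iff `0 ≤ p`, `0 ≤ r` and `|q|^2 ≤ p * r`; this class is closed under
sums and entrywise products.
-/

namespace Vale.Agent.Lib.P368

open Finset

/-- The Hermitian matrix with diagonal `x`, `z` and off-diagonal entry `q` is positive
semidefinite. -/
def sc_psd (x z : ℝ) (q : ℂ) : Prop := 0 ≤ x ∧ 0 ≤ z ∧ Complex.normSq q ≤ x * z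

theorem sc_mul {x z x' z' : ℝ} {q q' : ℂ} (h : sc_psd x z q) (h' : sc_psd x' z' q') :
    sc_psd (x * x') (z * z') (q * q') := by
  obtain ⟨hx, hz, hq⟩ := h
  obtain ⟨hx', hz', hq'⟩ := h'
  refine ⟨mul_nonneg hx hx', mul_nonneg hz hz', ?_⟩
  rw [Complex.normSq_mul]
  calc Complex.normSq q * Complex.normSq q' ≤ (x * z) * (x' * z') :=
        mul_le_mul hq hq' (Complex.normSq_nonneg _) (mul_nonneg hx hz)
    _ = x * x' * (z * z') := by ring

theorem sc_add {x z x' z' : ℝ} {q q' : ℂ} (h : sc_psd x z q) (h' : sc_psd x' z' q') :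
    sc_psd (x + x') (z + z') (q + q') := by
  obtain ⟨hx, hz, hq⟩ := h
  obtain ⟨hx', hz', hq'⟩ := h'
  refine ⟨add_nonneg hx hx', add_nonneg hz hz', ?_⟩
  rw [Complex.normSq_add]
  have ht : ((q * (starRingEnd ℂ) q').re) ^ 2 ≤ Complex.normSq q * Complex.normSq q' := by
    have h1 : ((q * (starRingEnd ℂ) q').re) ^ 2 ≤ Complex.normSq (q * (starRingEnd ℂ) q') := by
      rw [Complex.normSq_apply]
      nlinarith [sq_nonneg (q * (starRingEnd ℂ) q').im]
    rwa [Complex.normSq_mul, Complex.normSq_conj] at h1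
  have h4 : Complex.normSq q * Complex.normSq q' ≤ (x * z) * (x' * z') :=
    mul_le_mul hq hq' (Complex.normSq_nonneg _) (mul_nonneg hx hz)
  have h2 : 2 * (q * (starRingEnd ℂ) q').re ≤ x * z' + x' * z := by
    by_contra hcon
    push Not at hcon
    have hnn : 0 ≤ x * z' + x' * z := by positivity
    nlinarith [sq_nonneg (x * z' - x' * z),
      mul_pos (show 0 < 2 * (q * (starRingEnd ℂ) q').re - (x * z' + x' * z) by linarith)
        (show 0 < 2 * (q * (starRingEnd ℂ) q').re + (x * z' + x' * z) by linarith)]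
  have h5 : (x + x') * (z + z') = x * z + x * z' + x' * z + x' * z' := by ring
  rw [h5]
  linarith

theorem sc_two {x z : ℝ} {q : ℂ} (h : sc_psd (2 * x) (2 * z) (2 * q)) : sc_psd x z q := by
  obtain ⟨hx, hz, hq⟩ := h
  refine ⟨by linarith, by linarith, ?_⟩
  have h2 : Complex.normSq (2 : ℂ) = 4 := by
    rw [Complex.normSq_apply]
    norm_num
  rw [Complex.normSq_mul, h2] at hq
  linarith

theorem sc_form {x z : ℝ} {q : ℂ} (h : sc_psd x z q) : 0 ≤ x - 4 * q.re + 4 * z := by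
  obtain ⟨hx, hz, hq⟩ := h
  have h1 : q.re ^ 2 ≤ x * z := by
    rw [Complex.normSq_apply] at hq
    nlinarith [sq_nonneg q.im]
  by_contra hcon
  push Not at hcon
  have h2 : 0 ≤ x + 4 * z := by positivity
  nlinarith [sq_nonneg (x - 4 * z),
    mul_pos (show 0 < 4 * q.re - (x + 4 * z) by linarith)
      (show 0 < 4 * q.re + (x + 4 * z) by linarith)]

theorem sc_step {P aA S cA ρ' a' s' c' : ℝ} {βA β' : ℂ}
    (Tp : sc_psd (P + aA) (S + cA) ((S : ℂ) + βA))
    (Tm : sc_psd (P - aA) (S - cA) ((S : ℂ) - βA))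
    (tp : sc_psd (ρ' + a') (s' + c') ((s' : ℂ) + β'))
    (tm : sc_psd (ρ' - a') (s' - c') ((s' : ℂ) - β')) :
    sc_psd (ρ' * P + a' * aA) (s' * S + c' * cA) (((s' * S : ℝ) : ℂ) + β' * βA) ∧
      sc_psd (ρ' * P - a' * aA) (s' * S - c' * cA) (((s' * S : ℝ) : ℂ) - β' * βA) := by
  constructor
  · apply sc_two
    have h := sc_add (sc_mul Tp tp) (sc_mul Tm tm)
    have e1 : (P + aA) * (ρ' + a') + (P - aA) * (ρ' - a') = 2 * (ρ' * P + a' * aA) := by ring
    have e2 : (S + cA) * (s' + c') + (S - cA) * (s' - c') = 2 * (s' * S + c' * cA) := by ring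
    have e3 : ((S : ℂ) + βA) * ((s' : ℂ) + β') + ((S : ℂ) - βA) * ((s' : ℂ) - β')
        = 2 * (((s' * S : ℝ) : ℂ) + β' * βA) := by
      push_cast
      ring
    rw [e1, e2, e3] at h
    exact h
  · apply sc_two
    have h := sc_add (sc_mul Tp tm) (sc_mul Tm tp)
    have e1 : (P + aA) * (ρ' - a') + (P - aA) * (ρ' + a') = 2 * (ρ' * P - a' * aA) := by ring
    have e2 : (S + cA) * (s' - c') + (S - cA) * (s' + c') = 2 * (s' * S - c' * cA) := by ring
    have e3 : ((S : ℂ) + βA) * ((s' : ℂ) - β') + ((S : ℂ) - βA) * ((s' : ℂ) + β')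
        = 2 * (((s' * S : ℝ) : ℂ) - β' * βA) := by
      push_cast
      ring
    rw [e1, e2, e3] at h
    exact h

theorem sc_prod {ι : Type} (A : Finset ι) (a c : ι → ℝ) (β : ι → ℂ)
    (h : ∀ p ∈ A, sc_psd (a p) (c p) (β p)) :
    sc_psd (∏ p ∈ A, a p) (∏ p ∈ A, c p) (∏ p ∈ A, β p) := by
  classical
  induction A using Finset.induction_on with
  | empty =>
    simp only [Finset.prod_empty]
    exact ⟨zero_le_one, zero_le_one, by simp⟩
  | insert p A hp ih =>
    simp only [Finset.prod_insert hp]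
    exact sc_mul (h p (Finset.mem_insert_self p A))
      (ih (fun x hx => h x (Finset.mem_insert_of_mem hx)))

theorem sc_pair {ι : Type} (A : Finset ι) (a c ρ s : ι → ℝ) (β : ι → ℂ)
    (h : ∀ p ∈ A, sc_psd (ρ p + a p) (s p + c p) ((s p : ℂ) + β p) ∧
      sc_psd (ρ p - a p) (s p - c p) ((s p : ℂ) - β p)) :
    sc_psd (∏ p ∈ A, ρ p + ∏ p ∈ A, a p) (∏ p ∈ A, s p + ∏ p ∈ A, c p)
        (((∏ p ∈ A, s p : ℝ) : ℂ) + ∏ p ∈ A, β p) ∧
      sc_psd (∏ p ∈ A, ρ p - ∏ p ∈ A, a p) (∏ p ∈ A, s p - ∏ p ∈ A, c p)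
        (((∏ p ∈ A, s p : ℝ) : ℂ) - ∏ p ∈ A, β p) := by
  classical
  induction A using Finset.induction_on with
  | empty =>
    simp only [Finset.prod_empty]
    refine ⟨⟨by norm_num, by norm_num, ?_⟩, ⟨by norm_num, by norm_num, ?_⟩⟩
    · rw [Complex.normSq_apply]
      norm_num
    · simp
  | insert p A hp ih =>
    simp only [Finset.prod_insert hp]
    have hA := ih (fun x hx => h x (Finset.mem_insert_of_mem hx))
    have hp' := h p (Finset.mem_insert_self p A)
    exact sc_step hA.1 hA.2 hp'.1 hp'.2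

/-- Let `Γ p` have diagonal `ρ p`, `s p` and off-diagonal entry `s p`, and let `M p` have diagonal
`a p`, `c p` and off-diagonal entry `β p`.  If `Γ p + M p` and `Γ p - M p` are positive
semidefinite for every `p`, then the quadratic form of the entrywise product of the `M p` at the
vector `(1, -2)` is at most that of the entrywise product of the `Γ p`, which is `∏ ρ p`. -/
theorem schur_gate_bound {ι : Type} (A : Finset ι) (a c ρ s : ι → ℝ) (β : ι → ℂ)
    (h : ∀ p ∈ A, 0 ≤ ρ p + a p ∧ 0 ≤ ρ p - a p ∧ 0 ≤ s p + c p ∧ 0 ≤ s p - c p ∧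
      Complex.normSq ((s p : ℂ) + β p) ≤ (ρ p + a p) * (s p + c p) ∧
      Complex.normSq ((s p : ℂ) - β p) ≤ (ρ p - a p) * (s p - c p)) :
    |∏ p ∈ A, a p - 4 * (∏ p ∈ A, β p).re + 4 * ∏ p ∈ A, c p| ≤ ∏ p ∈ A, ρ p := by
  have hp : ∀ p ∈ A, sc_psd (ρ p + a p) (s p + c p) ((s p : ℂ) + β p) ∧
      sc_psd (ρ p - a p) (s p - c p) ((s p : ℂ) - β p) := by
    intro p hp
    obtain ⟨h1, h2, h3, h4, h5, h6⟩ := h p hp
    exact ⟨⟨h1, h3, h5⟩, ⟨h2, h4, h6⟩⟩
  obtain ⟨hT, hT'⟩ := sc_pair A a c ρ s β hp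
  have f1 := sc_form hT
  have f2 := sc_form hT'
  rw [Complex.add_re, Complex.ofReal_re] at f1
  rw [Complex.sub_re, Complex.ofReal_re] at f2
  rw [abs_le]
  constructor <;> linarith

/-- If every `M p` is positive semidefinite, the quadratic form of their entrywise product at
`(1, -2)` is nonnegative. -/
theorem schur_gate_nonneg {ι : Type} (A : Finset ι) (a c : ι → ℝ) (β : ι → ℂ)
    (h : ∀ p ∈ A, 0 ≤ a p ∧ 0 ≤ c p ∧ Complex.normSq (β p) ≤ a p * c p) :
    0 ≤ ∏ p ∈ A, a p - 4 * (∏ p ∈ A, β p).re + 4 * ∏ p ∈ A, c p :=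
  sc_form (sc_prod A a c β h)

end Vale.Agent.Lib.P368
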